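/-!
The computational part of the certificate checker, free of imports so that shards load quickly.
Everything is written with recursors, which the kernel reduces fastest.

The index `i` of a bitboard stands for the cell `(i % 24, i / 24)`.  Nodes of a table:

* `hit M g dx dy`: orientation `g` with offsets puts Snaky inside `M`; then the zone is empty.
* `mv M Z c n kids`: Maker plays the index `c`.  The digits of `kids` in base `2 ^ 48` are the
  `n + 1` kids; a kid is `j * 65536 + r * 256 + d`: the earlier node `j` translated by
  `(d - 24, r - 64)`.
* `img M Z j g dx dy`: the earlier node `j` mapped by orientation `g` with offsets.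

In a table `br k l r` the indices below `k` are on the left; each tip carries its own index.
-/

namespace Vale.Agent.P062

/-- The indices below 1536 whose column stays on the board when moved by `d - 24`. -/
def colMask (d : Nat) : Nat :=
  (2 ^ (bif Nat.ble d 24 then 24 else 48 - d) - 2 ^ (24 - d)) * ((2 ^ 1536 - 1) / (2 ^ 24 - 1))

/-- The amount subtracted in the code of a translation. -/
def shiftBase : Nat := 24 * 64 + 24

/-- A translate of a bitboard, by the code `s`. -/
def shiftBoard (s X : Nat) : Nat :=
  bif Nat.ble shiftBase s then Nat.shiftLeft X (s - shiftBase)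
  else Nat.shiftRight X (shiftBase - s)

/-- Nothing leaves the board: right shifts lose no bit and columns do not wrap. -/
def shiftOk (d r X : Nat) : Bool :=
  Nat.blt d 48 && Nat.beq (Nat.land X (colMask d)) X &&
    (Nat.ble shiftBase (24 * r + d) ||
      Nat.beq (Nat.shiftLeft (Nat.shiftRight X (shiftBase - (24 * r + d)))
        (shiftBase - (24 * r + d))) X)

/-- Reflection of a coordinate on indices, around 128. -/
def flipN (b : Bool) (x : Nat) : Nat := bif b then 128 - x else 128 + x

/-- The image index of a cell under orientation `g` and offsets `dx`, `dy`, shifted by 256. -/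
def symIdx (g dx dy i : Nat) : Nat × Nat :=
  bif Nat.blt g 4 then
    (flipN (Nat.beq (g % 2) 1) (i % 24) + dx, flipN (Nat.beq (g / 2 % 2) 1) (i / 24) + dy)
  else
    (flipN (Nat.beq (g / 2 % 2) 1) (i / 24) + dx, flipN (Nat.beq (g % 2) 1) (i % 24) + dy)

/-- The image of cell `i` is on the board and set in `T`. -/
def symHit (g dx dy T i : Nat) : Bool :=
  Nat.ble 256 (symIdx g dx dy i).1 && Nat.blt (symIdx g dx dy i).1 280 &&
    Nat.ble 256 (symIdx g dx dy i).2 &&
      Nat.testBit T ((symIdx g dx dy i).1 - 256 + 24 * ((symIdx g dx dy i).2 - 256))

/-- All set bits of `X` among the `2 ^ n` indices from `lo` pass `f`; empty halves are skipped. -/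
noncomputable def bitsAll (f : Nat → Bool) (X n : Nat) : Nat → Bool :=
  Nat.rec (motive := fun _ => Nat → Bool) (fun lo => !Nat.testBit X lo || f lo)
    (fun m a lo => Nat.beq (Nat.land (Nat.shiftRight X lo) (2 ^ (2 ^ (m + 1)) - 1)) 0 ||
      (a lo && a (lo + 2 ^ m))) n

/-- Orientation `g` moves every cell of `X` into `T`; the board is searched up to the index 1024. -/
noncomputable def symSubset (g dx dy T X : Nat) : Bool :=
  Nat.beq (Nat.shiftRight X 1024) 0 && bitsAll (symHit g dx dy T) X 10 0

/-- A node of a certificate. -/
inductive Node : Type where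
  | hit (M g dx dy : Nat)
  | mv (M Z c n kids : Nat)
  | img (M Z j g dx dy : Nat)

/-- The cells of Maker of a node. -/
noncomputable def Node.mk' (n : Node) : Nat :=
  Node.rec (motive := fun _ => Nat) (fun M _ _ _ => M) (fun M _ _ _ _ => M)
    (fun M _ _ _ _ _ => M) n

/-- The zone of a node. -/
noncomputable def Node.zone (n : Node) : Nat :=
  Node.rec (motive := fun _ => Nat) (fun _ _ _ _ => 0) (fun _ Z _ _ _ => Z)
    (fun _ Z _ _ _ _ => Z) n

/-- A table of nodes. -/
inductive Tree : Type where
  | tip (i : Nat) (n : Node)
  | br (k : Nat) (l r : Tree)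

/-- Look up an index. -/
noncomputable def Tree.get (t : Tree) (i : Nat) : Option Node :=
  Tree.rec (motive := fun _ => Option Node)
    (fun j n => bif Nat.beq i j then some n else none)
    (fun k _ _ gl gr => bif Nat.ble k i then gr else gl) t

/-- Snaky as a bitboard at the corner of the board. -/
def baseMask : Nat := 402653199

/-- `a` is a subboard of `b`. -/
def subB (a b : Nat) : Bool := Nat.beq (Nat.land a b) a

/-- One digit in base `2 ^ 48`. -/
def kidDigit (ks : Nat) : Nat := Nat.land ks 281474976710655

/-- The other digits. -/
def kidRest (ks : Nat) : Nat := Nat.shiftRight ks 48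

/-- The claim `(M, Z)` of a kid, translated by the code `k`, lies below the parent. -/
def kidFits (Mc MZ k M Z : Nat) : Bool :=
  shiftOk (k % 256) (k / 256 % 256) (Nat.lor M Z) &&
    subB (shiftBoard (24 * (k / 256 % 256) + k % 256) M) Mc &&
    subB (shiftBoard (24 * (k / 256 % 256) + k % 256) Z) MZ

/-- The `n` kids in `ks` are right, and the common part of `acc` and their zones lies in `Mc`. -/
noncomputable def kidsOk (T : Tree) (i Mc MZ n : Nat) : Nat → Option Nat → Bool :=
  Nat.rec (motive := fun _ => Nat → Option Nat → Bool)
    (fun _ acc => Option.rec (motive := fun _ => Bool) false (fun a => subB a Mc) acc)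
    (fun _ f ks acc => Nat.blt (Nat.shiftRight (kidDigit ks) 16) i &&
      Option.rec (motive := fun _ => Bool) false
        (fun nd => kidFits Mc MZ (kidDigit ks) nd.mk' nd.zone &&
          f (kidRest ks) (some (Option.rec (motive := fun _ => Nat)
            (shiftBoard (24 * (kidDigit ks / 256 % 256) + kidDigit ks % 256) nd.zone)
            (fun a => Nat.land a
              (shiftBoard (24 * (kidDigit ks / 256 % 256) + kidDigit ks % 256) nd.zone)) acc)))
        (T.get (Nat.shiftRight (kidDigit ks) 16))) n

/-- The check at index `i`. -/
noncomputable def nodeOk (T : Tree) (i : Nat) (nd : Node) : Bool :=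
  Node.rec (motive := fun _ => Bool)
    (fun M g dx dy => symSubset g dx dy M baseMask)
    (fun M Z c n ks => !Nat.testBit M c && Nat.testBit Z c &&
      kidsOk T i (Nat.lor (Nat.shiftLeft 1 c) M) (Nat.lor M Z) (n + 1) ks none)
    (fun M Z j g dx dy => Nat.blt j i &&
      Option.rec (motive := fun _ => Bool) false
        (fun m => symSubset g dx dy M m.mk' && symSubset g dx dy (Nat.lor M Z) m.zone) (T.get j))
    nd

/-- The check of all nodes of a part of the table. -/
noncomputable def checkTree (T U : Tree) : Bool :=
  Tree.rec (motive := fun _ => Bool) (fun i n => nodeOk T i n) (fun _ _ _ a b => a && b) U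

theorem checkTree_br {T l r : Tree} {k : Nat} (h1 : checkTree T l = true)
    (h2 : checkTree T r = true) : checkTree T (.br k l r) = true := by
  show (checkTree T l && checkTree T r) = true
  simp only [h1, h2, Bool.and_self]

end Vale.Agent.P062
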