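import Vale.Agent.P062.Game
import Vale.Agent.P062.Cert

/-!
Bitboards: the index `i` stands for the cell `(i % 24, i / 24)`.
-/

namespace Vale.Agent.P062

open Finset

/-- The cell of an index. -/
def cellOf (i : ℕ) : Cell := (((i % 24 : ℕ) : ℤ), ((i / 24 : ℕ) : ℤ))

/-- The set of cells of a bitboard. -/
def sem (X : ℕ) : Finset Cell :=
  ((Finset.range (X + 1)).filter fun i => Nat.testBit X i = true).image cellOf

theorem cellOf_injective : Function.Injective cellOf := by
  intro i j h
  simp only [cellOf, Prod.mk.injEq, Nat.cast_inj] at h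
  omega

theorem lt_of_testBit {X i : ℕ} (h : Nat.testBit X i = true) : i < X + 1 :=
  Nat.lt_succ_of_le ((Nat.lt_two_pow_self).le.trans (Nat.ge_two_pow_of_testBit h))

theorem mem_sem {X i : ℕ} : cellOf i ∈ sem X ↔ Nat.testBit X i = true := by
  simp only [sem, Finset.mem_image, Finset.mem_filter, Finset.mem_range]
  constructor
  · rintro ⟨j, ⟨_, hj⟩, e⟩
    rwa [← cellOf_injective e]
  · exact fun h => ⟨i, ⟨lt_of_testBit h, h⟩, rfl⟩

theorem exists_of_mem_sem {X : ℕ} {p : Cell} (h : p ∈ sem X) :
    ∃ i, Nat.testBit X i = true ∧ cellOf i = p := by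
  obtain ⟨i, hi, e⟩ := Finset.mem_image.1 h
  exact ⟨i, (Finset.mem_filter.1 hi).2, e⟩

theorem sem_zero : sem 0 = ∅ := by
  simp [sem]

theorem sem_subset {X Y : ℕ} (h : Nat.land X Y = X) : sem X ⊆ sem Y := by
  intro p hp
  obtain ⟨i, hi, rfl⟩ := exists_of_mem_sem hp
  rw [mem_sem]
  have : Nat.testBit (X &&& Y) i = true := by rw [show X &&& Y = X from h]; exact hi
  rw [Nat.testBit_and, Bool.and_eq_true] at this
  exact this.2

theorem sem_lor (X Y : ℕ) : sem (Nat.lor X Y) = sem X ∪ sem Y := by
  ext p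
  constructor
  · intro hp
    obtain ⟨i, hi, rfl⟩ := exists_of_mem_sem hp
    rw [show Nat.lor X Y = X ||| Y from rfl, Nat.testBit_or, Bool.or_eq_true] at hi
    rw [Finset.mem_union, mem_sem, mem_sem]
    exact hi
  · intro hp
    rcases Finset.mem_union.1 hp with hp | hp <;>
    · obtain ⟨i, hi, rfl⟩ := exists_of_mem_sem hp
      rw [mem_sem, show Nat.lor X Y = X ||| Y from rfl, Nat.testBit_or, hi]
      simp

theorem sem_bit (c : ℕ) : sem (Nat.shiftLeft 1 c) = {cellOf c} := by
  ext p
  rw [Finset.mem_singleton]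
  constructor
  · intro hp
    obtain ⟨i, hi, rfl⟩ := exists_of_mem_sem hp
    rw [show Nat.shiftLeft 1 c = 2 ^ c from Nat.one_shiftLeft c, Nat.testBit_two_pow] at hi
    rw [of_decide_eq_true hi]
  · rintro rfl
    rw [mem_sem, show Nat.shiftLeft 1 c = 2 ^ c from Nat.one_shiftLeft c]
    exact Nat.testBit_two_pow_self

theorem sem_insert (c X : ℕ) :
    sem (Nat.lor (Nat.shiftLeft 1 c) X) = insert (cellOf c) (sem X) := by
  rw [sem_lor, sem_bit, ← Finset.insert_eq]

theorem colMask_table : ((List.range 48).all fun d =>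
    (Nat.ble (colMask d) (2 ^ 1536 - 1)) && ((List.range 1536).all fun i =>
      !Nat.testBit (colMask d) i || (Nat.ble 24 (i % 24 + d) && Nat.blt (i % 24 + d) 48))) = true := by
  decide +kernel

theorem colMask_spec {d i : ℕ} (hd : d < 48) (h : Nat.testBit (colMask d) i = true) :
    24 ≤ i % 24 + d ∧ i % 24 + d < 48 := by
  have hall := List.all_eq_true.1 colMask_table d (List.mem_range.2 hd)
  rw [Bool.and_eq_true] at hall
  have hb := Nat.le_of_ble_eq_true hall.1
  have hi : i < 1536 := by
    by_contra hcon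
    have h1 := Nat.ge_two_pow_of_testBit h
    have h2 : 2 ^ 1536 ≤ 2 ^ i := Nat.pow_le_pow_right (by norm_num) (not_lt.1 hcon)
    have h3 : 0 < 2 ^ 1536 := Nat.two_pow_pos _
    omega
  have h2 := List.all_eq_true.1 hall.2 i (List.mem_range.2 hi)
  rw [h, Bool.not_true, Bool.false_or, Bool.and_eq_true] at h2
  exact ⟨Nat.le_of_ble_eq_true h2.1, Nat.le_of_ble_eq_true h2.2⟩

/-- The translation by `(d - 24, r - 64)`. -/
def moveEquiv (d r : ℕ) : Cell ≃ Cell := Equiv.addRight (((d : ℤ) - 24, (r : ℤ) - 64) : Cell)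

theorem isSym_addRight (v : Cell) : IsSym (Equiv.addRight v) := by
  rintro T ⟨t, a, b, c, d, h, rfl⟩
  refine ⟨t + v, a, b, c, d, h, ?_⟩
  rw [Finset.image_image]
  refine Finset.image_congr fun p _ => ?_
  simp only [Function.comp_apply, Equiv.coe_addRight, Prod.fst_add, Prod.snd_add]
  ext <;> simp <;> ring

theorem sem_shift_eq {d r X : ℕ} (h : shiftOk d r X = true) :
    (sem X).image (moveEquiv d r) = sem (shiftBoard (24 * r + d) X) := by
  simp only [shiftOk, Bool.and_eq_true, Bool.or_eq_true] at h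
  obtain ⟨⟨hd, hmask⟩, hloss⟩ := h
  have hd' : d < 48 := Nat.le_of_ble_eq_true hd
  have hmask' : Nat.land X (colMask d) = X := Nat.eq_of_beq_eq_true hmask
  have hcol : ∀ i, Nat.testBit X i = true → 24 ≤ i % 24 + d ∧ i % 24 + d < 48 := fun i hi => by
    refine colMask_spec hd' ?_
    have : Nat.testBit (X &&& colMask d) i = true := by
      rw [show X &&& colMask d = X from hmask']; exact hi
    rw [Nat.testBit_and, Bool.and_eq_true] at this
    exact this.2
  have hcell : ∀ i j : ℕ, Nat.testBit X i = true → j + shiftBase = i + (24 * r + d) →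
      moveEquiv d r (cellOf i) = cellOf j := fun i j hi he => by
    obtain ⟨c1, c2⟩ := hcol i hi
    simp only [moveEquiv, Equiv.coe_addRight, cellOf, Prod.mk_add_mk, Prod.mk.injEq, shiftBase] at he ⊢
    omega
  have hlow : ∀ i, Nat.testBit X i = true → shiftBase ≤ i + (24 * r + d) := fun i hi => by
    rcases hloss with h | h
    · have := Nat.le_of_ble_eq_true h; omega
    · have e := Nat.eq_of_beq_eq_true h
      by_contra hcon
      have : Nat.testBit ((X >>> (shiftBase - (24 * r + d))) <<< (shiftBase - (24 * r + d))) i =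
          true := by
        rw [show (X >>> (shiftBase - (24 * r + d))) <<< (shiftBase - (24 * r + d)) = X from e]
        exact hi
      rw [Nat.testBit_shiftLeft, Bool.and_eq_true] at this
      have := of_decide_eq_true this.1
      omega
  have hbit : ∀ j, Nat.testBit (shiftBoard (24 * r + d) X) j = true ↔
      ∃ i, Nat.testBit X i = true ∧ j + shiftBase = i + (24 * r + d) := by
    intro j
    unfold shiftBoard
    rcases Nat.lt_or_ge (24 * r + d) shiftBase with hs | hs
    · rw [show Nat.ble shiftBase (24 * r + d) = false from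
        Bool.eq_false_iff.2 fun h => absurd (Nat.le_of_ble_eq_true h) (not_le.2 hs), cond_false,
        show Nat.shiftRight X (shiftBase - (24 * r + d)) = X >>> (shiftBase - (24 * r + d)) from rfl,
        Nat.testBit_shiftRight]
      refine ⟨fun h => ⟨_, h, by omega⟩, fun ⟨i, hi, e⟩ => ?_⟩
      convert hi using 2
      omega
    · rw [Nat.ble_eq_true_of_le hs, cond_true,
        show Nat.shiftLeft X (24 * r + d - shiftBase) = X <<< (24 * r + d - shiftBase) from rfl,
        Nat.testBit_shiftLeft, Bool.and_eq_true, decide_eq_true_iff]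
      refine ⟨fun h => ⟨_, h.2, by omega⟩, fun ⟨i, hi, e⟩ => ⟨by omega, ?_⟩⟩
      convert hi using 2
      omega
  ext p
  constructor
  · intro hp
    obtain ⟨q, hq, rfl⟩ := Finset.mem_image.1 hp
    obtain ⟨i, hi, rfl⟩ := exists_of_mem_sem hq
    have := hlow i hi
    rw [hcell i (i + (24 * r + d) - shiftBase) hi (by omega), mem_sem, hbit]
    exact ⟨i, hi, by omega⟩
  · intro hp
    obtain ⟨j, hj, rfl⟩ := exists_of_mem_sem hp
    obtain ⟨i, hi, e⟩ := (hbit j).1 hj
    exact Finset.mem_image.2 ⟨cellOf i, mem_sem.2 hi, hcell i j hi e⟩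

end Vale.Agent.P062
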