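import Vale.Agent.P062.Sym

/-!
Soundness of the certificate checker of `Cert`.
-/

namespace Vale.Agent.P062

open Finset

theorem sem_baseMask : sem baseMask = snaky := by
  ext p
  constructor
  · intro hp
    obtain ⟨i, hi, rfl⟩ := exists_of_mem_sem hp
    have hlt : i < 29 := by
      by_contra hcon
      have h1 := Nat.ge_two_pow_of_testBit hi
      have h2 : 2 ^ 29 ≤ 2 ^ i := Nat.pow_le_pow_right (by norm_num) (not_lt.1 hcon)
      simp only [baseMask] at h1; norm_num at h1 h2
      omega
    revert hi
    interval_cases i <;> decide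
  · intro hp
    simp only [snaky, Finset.mem_insert, Finset.mem_singleton] at hp
    rcases hp with rfl | rfl | rfl | rfl | rfl | rfl
    · exact mem_sem.2 (show Nat.testBit baseMask 0 = true by decide)
    · exact mem_sem.2 (show Nat.testBit baseMask 1 = true by decide)
    · exact mem_sem.2 (show Nat.testBit baseMask 2 = true by decide)
    · exact mem_sem.2 (show Nat.testBit baseMask 3 = true by decide)
    · exact mem_sem.2 (show Nat.testBit baseMask 27 = true by decide)
    · exact mem_sem.2 (show Nat.testBit baseMask 28 = true by decide)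

theorem isCopy_snaky : IsCopy snaky :=
  ⟨(0, 0), 1, 0, 0, 1, Or.inl ⟨abs_one, rfl, rfl, abs_one⟩, by decide⟩

theorem get_tip (j : ℕ) (n : Node) (i : ℕ) :
    (Tree.tip j n).get i = bif Nat.beq i j then some n else none := rfl

theorem get_br (k : ℕ) (l r : Tree) (i : ℕ) :
    (Tree.br k l r).get i = bif Nat.ble k i then r.get i else l.get i := rfl

theorem checkTree_get {T : Tree} : ∀ {U : Tree} {i : ℕ} {n : Node},
    checkTree T U = true → U.get i = some n → nodeOk T i n = true := by
  intro U
  induction U with
  | tip j m =>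
    intro i n h hg
    rw [get_tip] at hg
    cases hb : Nat.beq i j
    · rw [hb, cond_false] at hg; exact absurd hg (by simp)
    · rw [hb, cond_true, Option.some.injEq] at hg
      rw [Nat.eq_of_beq_eq_true hb, ← hg]
      exact h
  | br k l r ihl ihr =>
    intro i n h hg
    change (checkTree T l && checkTree T r) = true at h
    rw [Bool.and_eq_true] at h
    rw [get_br] at hg
    cases hb : Nat.ble k i
    · rw [hb, cond_false] at hg; exact ihl h.1 hg
    · rw [hb, cond_true] at hg; exact ihr h.2 hg

theorem testBit_of_subB {a b : ℕ} (h : subB a b = true) : sem a ⊆ sem b :=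
  sem_subset (Nat.eq_of_beq_eq_true h)

theorem mem_sem_land {a b : ℕ} {p : Cell} : p ∈ sem (Nat.land a b) ↔ p ∈ sem a ∧ p ∈ sem b := by
  constructor
  · intro hp
    obtain ⟨i, hi, rfl⟩ := exists_of_mem_sem hp
    rw [show Nat.land a b = a &&& b from rfl, Nat.testBit_and, Bool.and_eq_true] at hi
    exact ⟨mem_sem.2 hi.1, mem_sem.2 hi.2⟩
  · rintro ⟨h1, h2⟩
    obtain ⟨i, hi, rfl⟩ := exists_of_mem_sem h1
    rw [mem_sem, show Nat.land a b = a &&& b from rfl, Nat.testBit_and, hi, Bool.true_and]
    exact mem_sem.1 h2

theorem shiftOk_mono {d r X Y : ℕ} (h : shiftOk d r Y = true)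
    (hs : ∀ i, Nat.testBit X i = true → Nat.testBit Y i = true) : shiftOk d r X = true := by
  simp only [shiftOk, Bool.and_eq_true, Bool.or_eq_true] at h ⊢
  obtain ⟨⟨h1, h2⟩, h3⟩ := h
  have h2' : Nat.land Y (colMask d) = Y := Nat.eq_of_beq_eq_true h2
  refine ⟨⟨h1, ?_⟩, ?_⟩
  · rw [show Nat.land X (colMask d) = X from ?_]
    · exact Nat.beq_refl X
    refine Nat.eq_of_testBit_eq fun i => ?_
    rw [show Nat.land X (colMask d) = X &&& colMask d from rfl, Nat.testBit_and]
    cases hx : Nat.testBit X i
    · simp
    · have : Nat.testBit (Y &&& colMask d) i = true := by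
        rw [show Y &&& colMask d = Y from h2']; exact hs i hx
      rw [Nat.testBit_and, Bool.and_eq_true] at this
      rw [this.2]; rfl
  · refine h3.imp id fun h3 => ?_
    set k := shiftBase - (24 * r + d)
    have h3' : (Y >>> k) <<< k = Y := Nat.eq_of_beq_eq_true h3
    rw [show Nat.shiftLeft (Nat.shiftRight X k) k = X from ?_]
    · exact Nat.beq_refl X
    refine Nat.eq_of_testBit_eq fun i => ?_
    rw [show Nat.shiftLeft (Nat.shiftRight X k) k = (X >>> k) <<< k from rfl,
      Nat.testBit_shiftLeft, Nat.testBit_shiftRight]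
    cases hx : Nat.testBit X i
    · rcases Nat.lt_or_ge i k with hk | hk
      · simp [hk]
      · rw [show k + (i - k) = i by omega, hx, Bool.and_false]
    · have : Nat.testBit ((Y >>> k) <<< k) i = true := by rw [h3']; exact hs i hx
      rw [Nat.testBit_shiftLeft, Bool.and_eq_true] at this
      have hk := of_decide_eq_true this.1
      rw [show k + (i - k) = i by omega, hx]
      simp [hk]

/-- The claim of a node. -/
def Claim (n : Node) : Prop := Goal (sem n.mk') (sem n.zone)

theorem kidsOk_zero (T : Tree) (i Mc MZ ks : ℕ) (acc : Option ℕ) :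
    kidsOk T i Mc MZ 0 ks acc =
      Option.rec (motive := fun _ => Bool) false (fun a => subB a Mc) acc := rfl

theorem kidsOk_succ (T : Tree) (i Mc MZ n ks : ℕ) (acc : Option ℕ) :
    kidsOk T i Mc MZ (n + 1) ks acc = (Nat.blt (Nat.shiftRight (kidDigit ks) 16) i &&
      Option.rec (motive := fun _ => Bool) false
        (fun nd => kidFits Mc MZ (kidDigit ks) nd.mk' nd.zone &&
          kidsOk T i Mc MZ n (kidRest ks) (some (Option.rec (motive := fun _ => ℕ)
            (shiftBoard (24 * (kidDigit ks / 256 % 256) + kidDigit ks % 256) nd.zone)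
            (fun a => Nat.land a
              (shiftBoard (24 * (kidDigit ks / 256 % 256) + kidDigit ks % 256) nd.zone)) acc)))
        (T.get (Nat.shiftRight (kidDigit ks) 16))) := rfl

/-- All translated claims of the kids hold, lie below the parent, and the zones meet in `Mc`. -/
theorem kidsOk_spec {T : Tree} {i Mc MZ : ℕ}
    (IH : ∀ j < i, ∀ n, T.get j = some n → Claim n) : ∀ (m ks : ℕ) (acc : Option ℕ),
    kidsOk T i Mc MZ m ks acc = true →
    ∃ L : List (Finset Cell × Finset Cell), (∀ p ∈ L, Goal p.1 p.2) ∧ (∀ p ∈ L, p.1 ⊆ sem Mc) ∧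
      (∀ p ∈ L, p.2 ⊆ sem MZ) ∧
      ∀ y, (∀ a, acc = some a → y ∈ sem a) → (∀ p ∈ L, y ∈ p.2) → y ∈ sem Mc := by
  intro m
  induction m with
  | zero =>
    intro ks acc h
    rw [kidsOk_zero] at h
    refine ⟨[], by simp, by simp, by simp, fun y hy _ => ?_⟩
    cases acc with
    | none => exact absurd h Bool.false_ne_true
    | some a => exact testBit_of_subB h (hy a rfl)
  | succ m ih =>
    intro ks acc h
    rw [kidsOk_succ] at h
    simp only [Bool.and_eq_true] at h
    obtain ⟨hj, h⟩ := h
    generalize kidDigit ks = k at hj h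
    cases hget : T.get (Nat.shiftRight k 16) with
    | none => rw [hget] at h; exact absurd h Bool.false_ne_true
    | some n =>
      rw [hget] at h
      simp only [kidFits, Bool.and_eq_true] at h
      obtain ⟨⟨⟨hs, hM⟩, hZ⟩, hrest⟩ := h
      obtain ⟨L, g1, g2, g3, g5⟩ := ih _ _ hrest
      have hsM : shiftOk (k % 256) (k / 256 % 256) n.mk' = true := shiftOk_mono hs fun i hi => by
        rw [show Nat.lor n.mk' n.zone = n.mk' ||| n.zone from rfl, Nat.testBit_or, hi, Bool.true_or]
      have hsZ : shiftOk (k % 256) (k / 256 % 256) n.zone = true := shiftOk_mono hs fun i hi => by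
        rw [show Nat.lor n.mk' n.zone = n.mk' ||| n.zone from rfl, Nat.testBit_or, hi, Bool.or_true]
      have hgoal := Goal.image (IH _ (Nat.le_of_ble_eq_true hj) n hget)
        (e := moveEquiv (k % 256) (k / 256 % 256)) (isSym_addRight _)
      rw [sem_shift_eq hsM, sem_shift_eq hsZ] at hgoal
      refine ⟨(sem (shiftBoard (24 * (k / 256 % 256) + k % 256) n.mk'),
        sem (shiftBoard (24 * (k / 256 % 256) + k % 256) n.zone)) :: L, ?_, ?_, ?_, ?_⟩
      · exact List.forall_mem_cons.2 ⟨hgoal, g1⟩
      · exact List.forall_mem_cons.2 ⟨testBit_of_subB hM, g2⟩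
      · exact List.forall_mem_cons.2 ⟨testBit_of_subB hZ, g3⟩
      · intro y hy hall
        obtain ⟨hyk, hrest⟩ := List.forall_mem_cons.1 hall
        refine g5 y (fun a ha => ?_) hrest
        rw [Option.some.injEq] at ha
        subst ha
        cases acc with
        | none => exact hyk
        | some a => exact mem_sem_land.2 ⟨hy a rfl, hyk⟩

/-- A checked table proves all its claims. -/
theorem claim_of_check {T : Tree} (h : checkTree T T = true) :
    ∀ i n, T.get i = some n → Claim n := by
  intro i
  induction i using Nat.strong_induction_on with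
  | _ i IH =>
    intro n hn
    have hok := checkTree_get h hn
    cases n with
    | hit M g dx dy =>
      change symSubset g dx dy M baseMask = true at hok
      refine goal_of_copy ⟨_, isSym_symEquiv g dx dy _ isCopy_snaky, ?_⟩
      rw [← sem_baseMask]
      exact symSubset_spec hok
    | mv M Z c m kids =>
      change (!Nat.testBit M c && Nat.testBit Z c &&
        kidsOk T i (Nat.lor (Nat.shiftLeft 1 c) M) (Nat.lor M Z) (m + 1) kids none) = true at hok
      simp only [Bool.and_eq_true] at hok
      obtain ⟨⟨hcM, hcZ⟩, hk⟩ := hok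
      obtain ⟨L, g1, g2, g3, g5⟩ := kidsOk_spec (fun j hj m hm => IH j hj m hm) _ _ _ hk
      refine goal_move (c := cellOf c) (mem_sem.2 hcZ) ?_ L g1 ?_ ?_ fun y hy => ?_
      · intro hmem
        rw [show Node.mk' (.mv M Z c m kids) = M from rfl, mem_sem] at hmem
        rw [hmem] at hcM
        exact absurd hcM (by simp)
      · intro p hp
        rw [show Node.mk' (.mv M Z c m kids) = M from rfl, ← sem_insert]
        exact g2 p hp
      · intro p hp
        rw [show Node.mk' (.mv M Z c m kids) = M from rfl,
          show Node.zone (.mv M Z c m kids) = Z from rfl, ← sem_lor]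
        exact g3 p hp
      · rw [show Node.mk' (.mv M Z c m kids) = M from rfl, ← sem_insert]
        exact g5 y (fun a ha => absurd ha (by simp)) hy
    | img M Z j g dx dy =>
      change (Nat.blt j i && Option.rec (motive := fun _ => Bool) false
        (fun m => symSubset g dx dy M m.mk' && symSubset g dx dy (Nat.lor M Z) m.zone)
        (T.get j)) = true at hok
      simp only [Bool.and_eq_true] at hok
      obtain ⟨hj, hk⟩ := hok
      cases hget : T.get j with
      | none => rw [hget] at hk; exact absurd hk Bool.false_ne_true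
      | some m =>
        rw [hget] at hk
        simp only [Bool.and_eq_true] at hk
        obtain ⟨k, hk'⟩ := (IH j (Nat.le_of_ble_eq_true hj) m hget).image (isSym_symEquiv g dx dy)
        change Goal (sem M) (sem Z)
        refine ⟨k, fun B hBM hBZ => ?_⟩
        have s1 := symSubset_spec hk.1
        have s2 := symSubset_spec hk.2
        rw [sem_lor] at s2
        exact (hk' B (hBM.mono_right s1)
          ((Finset.disjoint_union_right.2 ⟨hBM, hBZ⟩).mono_right s2)).mono s1

/-- A checked table with a claim from the empty board proves the win. -/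
theorem makerWins_of_check {T : Tree} (h : checkTree T T = true) {i : ℕ} {n : Node}
    (hn : T.get i = some n) (h0 : n.mk' = 0) : MakerWins := by
  have hc : Goal (sem n.mk') (sem n.zone) := claim_of_check h i n hn
  rw [h0, sem_zero] at hc
  exact makerWins_of_goal hc

end Vale.Agent.P062
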