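import Mathlib

/-!
The achievement game for Snaky on the square grid: strategies, bounded forced wins, and the rule
behind relevance zones.
-/

namespace Vale.Agent.P062

open Finset

/-- A cell of the square grid, indexed by its lower-left corner. -/
abbrev Cell : Type := ℤ × ℤ

/-- The hexomino Snaky. -/
def snaky : Finset Cell := {(0, 0), (1, 0), (2, 0), (3, 0), (3, 1), (4, 1)}

/-- An allowed copy: the image under a translation after a signed permutation matrix. -/
def IsCopy (T : Finset Cell) : Prop :=
  ∃ t : Cell, ∃ a b c d : ℤ,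
    ((|a| = 1 ∧ b = 0 ∧ c = 0 ∧ |d| = 1) ∨ (a = 0 ∧ |b| = 1 ∧ |c| = 1 ∧ d = 0)) ∧
      T = snaky.image fun p : Cell => (t.1 + a * p.1 + b * p.2, t.2 + c * p.1 + d * p.2)

/-- A strategy of Maker: from the earlier moves of Breaker, in order, the next cell of Maker. -/
abbrev Strategy : Type := List Cell → Cell

/-- The move of Maker in turn `i` against the sequence `b` of moves of Breaker. -/
def makerMove (σ : Strategy) (b : ℕ → Cell) (i : ℕ) : Cell :=
  σ (List.ofFn fun j : Fin i => b j)

/-- The sequence `b` is legal for Breaker: each move takes an unclaimed cell. -/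
def LegalBreaker (σ : Strategy) (b : ℕ → Cell) : Prop :=
  ∀ i, (∀ j ≤ i, b i ≠ makerMove σ b j) ∧ ∀ j < i, b i ≠ b j

/-- Maker moves first and can force owning an allowed copy after finitely many turns, taking only
unclaimed cells, against every legal sequence of moves of Breaker. -/
def MakerWins : Prop :=
  ∃ σ : Strategy, ∀ b : ℕ → Cell, LegalBreaker σ b →
    ∃ n : ℕ, (∀ i ≤ n, ∀ j < i, makerMove σ b i ≠ makerMove σ b j ∧ makerMove σ b i ≠ b j) ∧
      ∃ T : Finset Cell, IsCopy T ∧ ∀ p ∈ T, ∃ i ≤ n, makerMove σ b i = p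

/-- `M` contains an allowed copy. -/
def HasCopy (M : Finset Cell) : Prop := ∃ T, IsCopy T ∧ T ⊆ M

/-- Maker, to move, owns `M` against `B` and wins within `n` further moves. -/
def Win : ℕ → Finset Cell → Finset Cell → Prop
  | 0, M, _ => HasCopy M
  | n + 1, M, B => HasCopy M ∨ ∃ x, x ∉ M ∧ x ∉ B ∧
      ∀ y, y ∉ insert x M → y ∉ B → Win n (insert x M) (insert y B)

theorem HasCopy.mono {M M' : Finset Cell} (h : HasCopy M) (hs : M ⊆ M') : HasCopy M' :=
  let ⟨T, hT, hT'⟩ := h
  ⟨T, hT, hT'.trans hs⟩

theorem win_of_hasCopy {n : ℕ} {M B : Finset Cell} (h : HasCopy M) : Win n M B := by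
  cases n with
  | zero => exact h
  | succ n => exact Or.inl h

theorem exists_free (M B : Finset Cell) : ∃ x, x ∉ M ∧ x ∉ B := by
  obtain ⟨x, hx⟩ := Infinite.exists_notMem_finset (M ∪ B)
  exact ⟨x, fun h => hx (Finset.mem_union_left _ h), fun h => hx (Finset.mem_union_right _ h)⟩

theorem Win.succ {n : ℕ} {M B : Finset Cell} (h : Win n M B) : Win (n + 1) M B := by
  induction n generalizing M B with
  | zero => exact Or.inl h
  | succ n ih =>
    rcases h with h | ⟨x, h1, h2, h3⟩
    · exact Or.inl h
    · exact Or.inr ⟨x, h1, h2, fun y a b => ih (h3 y a b)⟩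

theorem Win.le {n m : ℕ} {M B : Finset Cell} (h : Win n M B) (hnm : n ≤ m) : Win m M B := by
  induction m, hnm using Nat.le_induction with
  | base => exact h
  | succ m _ ih => exact ih.succ

/-- Extra cells of Maker do not hurt. -/
theorem Win.mono {n : ℕ} {M M' B : Finset Cell} (h : Win n M B) (hs : M ⊆ M') : Win n M' B := by
  induction n generalizing M M' B with
  | zero => exact HasCopy.mono h hs
  | succ n ih =>
    rcases h with h | ⟨x, _, h2, h3⟩
    · exact Or.inl (h.mono hs)
    · right
      by_cases hx : x ∈ M'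
      · obtain ⟨x', hx'M, hx'B⟩ := exists_free M' B
        refine ⟨x', hx'M, hx'B, fun y hy hyB => ih (h3 y ?_ hyB) ?_⟩
        · intro hy'
          refine hy (Finset.mem_insert_of_mem ?_)
          rcases Finset.mem_insert.1 hy' with rfl | h'
          · exact hx
          · exact hs h'
        · exact Finset.insert_subset (Finset.mem_insert_of_mem hx)
            (hs.trans (Finset.subset_insert _ _))
      · refine ⟨x, hx, h2, fun y hy hyB => ih (h3 y ?_ hyB) (Finset.insert_subset_insert x hs)⟩
        exact fun hy' => hy (Finset.insert_subset_insert x hs hy')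

/-- A symmetry of the game. -/
def IsSym (e : Cell ≃ Cell) : Prop := ∀ T, IsCopy T → IsCopy (T.image e)

theorem Win.image {n : ℕ} {M B : Finset Cell} (h : Win n M B) {e : Cell ≃ Cell} (he : IsSym e) :
    Win n (M.image e) (B.image e) := by
  induction n generalizing M B with
  | zero =>
    obtain ⟨T, hT, hTM⟩ := h
    exact ⟨T.image e, he T hT, Finset.image_subset_image hTM⟩
  | succ n ih =>
    rcases h with ⟨T, hT, hTM⟩ | ⟨x, h1, h2, h3⟩
    · exact Or.inl ⟨T.image e, he T hT, Finset.image_subset_image hTM⟩
    · refine Or.inr ⟨e x, ?_, ?_, fun y hy hyB => ?_⟩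
      · simpa using h1
      · simpa using h2
      · obtain ⟨y, rfl⟩ := e.surjective y
        rw [← Finset.image_insert] at hy ⊢
        rw [← Finset.image_insert]
        exact ih (h3 y (by simpa using hy) (by simpa using hyB))

/-- The claim behind a zone: Maker wins from `M` against every `B` which avoids `M` and `Z`. -/
def Goal (M Z : Finset Cell) : Prop :=
  ∃ n, ∀ B : Finset Cell, Disjoint B M → Disjoint B Z → Win n M B

theorem goal_of_copy {M Z : Finset Cell} (h : HasCopy M) : Goal M Z :=
  ⟨0, fun _ _ _ => h⟩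

theorem Goal.image {M Z : Finset Cell} (h : Goal M Z) {e : Cell ≃ Cell} (he : IsSym e) :
    Goal (M.image e) (Z.image e) := by
  obtain ⟨n, hn⟩ := h
  refine ⟨n, fun B hM hZ => ?_⟩
  have key : ∀ S : Finset Cell, Disjoint B (S.image e) → Disjoint (B.image e.symm) S := by
    intro S hS
    refine Finset.disjoint_left.2 fun p hp hpS => ?_
    obtain ⟨q, hq, rfl⟩ := Finset.mem_image.1 hp
    exact Finset.disjoint_left.1 hS hq (Finset.mem_image.2 ⟨_, hpS, by simp⟩)
  have h' := (hn _ (key M hM) (key Z hZ)).image he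
  rwa [Finset.image_image, e.self_comp_symm, Finset.image_id] at h'

/-- The rule of relevance zones: the replies outside some zone are refuted by that zone, and no
free cell lies in all the zones. -/
theorem goal_move {M Z : Finset Cell} {c : Cell} (hcZ : c ∈ Z) (hcM : c ∉ M)
    (L : List (Finset Cell × Finset Cell))
    (hG : ∀ p ∈ L, Goal p.1 p.2) (hMs : ∀ p ∈ L, p.1 ⊆ insert c M) (hZs : ∀ p ∈ L, p.2 ⊆ M ∪ Z)
    (hinter : ∀ y, (∀ p ∈ L, y ∈ p.2) → y ∈ insert c M) : Goal M Z := by
  classical
  have hall : ∃ n, ∀ p ∈ L, ∀ B : Finset Cell, Disjoint B p.1 → Disjoint B p.2 → Win n p.1 B := by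
    clear hMs hZs hinter
    induction L with
    | nil => exact ⟨0, by simp⟩
    | cons p L ih =>
      obtain ⟨n, hn⟩ := hG p List.mem_cons_self
      obtain ⟨m, hm⟩ := ih fun q hq => hG q (List.mem_cons_of_mem _ hq)
      refine ⟨max n m, fun q hq B h1 h2 => ?_⟩
      rcases List.mem_cons.1 hq with rfl | hq
      · exact (hn B h1 h2).le (le_max_left _ _)
      · exact (hm q hq B h1 h2).le (le_max_right _ _)
  obtain ⟨n, hn⟩ := hall
  refine ⟨n + 1, fun B hBM hBZ => Or.inr ⟨c, hcM, ?_, fun y hy hyB => ?_⟩⟩
  · exact fun h => Finset.disjoint_left.1 hBZ h hcZ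
  · obtain ⟨p, hp, hyp⟩ : ∃ p ∈ L, y ∉ p.2 := by
      by_contra hcon
      push Not at hcon
      exact hy (hinter y hcon)
    refine (hn p hp _ ?_ ?_).mono (hMs p hp)
    · refine Finset.disjoint_left.2 fun q hq hqp => ?_
      have hqM := hMs p hp hqp
      rcases Finset.mem_insert.1 hq with rfl | hq
      · exact hy hqM
      · rcases Finset.mem_insert.1 hqM with rfl | hqM
        · exact Finset.disjoint_left.1 hBZ hq hcZ
        · exact Finset.disjoint_left.1 hBM hq hqM
    · refine Finset.disjoint_left.2 fun q hq hqp => ?_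
      rcases Finset.mem_insert.1 hq with rfl | hq
      · exact hyp hqp
      · rcases Finset.mem_union.1 (hZs p hp hqp) with hqM | hqZ
        · exact Finset.disjoint_left.1 hBM hq hqM
        · exact Finset.disjoint_left.1 hBZ hq hqZ

open Classical in
/-- The move chosen in a position won within `n` moves. -/
noncomputable def pick (n : ℕ) (M B : Finset Cell) : Cell :=
  if h : ∃ x, x ∉ M ∧ x ∉ B ∧ ∀ y, y ∉ insert x M → y ∉ B →
      Win (n - 1) (insert x M) (insert y B)
  then h.choose else (exists_free M B).choose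

theorem pick_free (n : ℕ) (M B : Finset Cell) : pick n M B ∉ M ∧ pick n M B ∉ B := by
  unfold pick
  split_ifs with h
  · exact ⟨h.choose_spec.1, h.choose_spec.2.1⟩
  · exact (exists_free M B).choose_spec

theorem pick_win {n : ℕ} {M B : Finset Cell} (h : Win (n + 1) M B) :
    HasCopy M ∨ ∀ y, y ∉ insert (pick (n + 1) M B) M → y ∉ B →
      Win n (insert (pick (n + 1) M B) M) (insert y B) := by
  rcases h with h | h
  · exact Or.inl h
  · right
    have h' : ∃ x, x ∉ M ∧ x ∉ B ∧ ∀ y, y ∉ insert x M → y ∉ B →
        Win (n + 1 - 1) (insert x M) (insert y B) := h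
    unfold pick
    rw [dif_pos h']
    exact h'.choose_spec.2.2

/-- The strategy read off a bounded win. -/
noncomputable def strat : List Cell → ℕ → Finset Cell → Finset Cell → Cell
  | [], n, M, B => pick n M B
  | y :: h, n, M, B => strat h (n - 1) (insert (pick n M B) M) (insert y B)

theorem strat_wins (n : ℕ) : ∀ (M B : Finset Cell) (b : ℕ → Cell), Win n M B →
    ∀ m : ℕ → Cell, (∀ i, m i = strat (List.ofFn fun j : Fin i => b j) n M B) →
    (∀ i, b i ∉ M ∧ b i ∉ B ∧ (∀ j ≤ i, b i ≠ m j) ∧ ∀ j < i, b i ≠ b j) →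
      ∃ k, (∀ i < k, m i ∉ M ∧ m i ∉ B ∧ ∀ j < i, m i ≠ m j ∧ m i ≠ b j) ∧
        HasCopy (M ∪ (Finset.range k).image m) := by
  induction n with
  | zero => exact fun M B b h m _ _ => ⟨0, by simp, HasCopy.mono (show HasCopy M from h) Finset.subset_union_left⟩
  | succ n ih =>
    intro M B b h m hm hleg
    rcases pick_win h with hc | hnext
    · exact ⟨0, by simp, by simpa using hc⟩
    set x := pick (n + 1) M B with hx
    have hm0 : m 0 = x := by simp [hm, strat, hx]
    have hmS : ∀ i, m (i + 1) =
        strat (List.ofFn fun j : Fin i => b (j + 1)) n (insert x M) (insert (b 0) B) := fun i => by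
      simp [hm, List.ofFn_succ, strat, hx]
    obtain ⟨l1, l2, l3, l4⟩ := hleg 0
    have hb0 : b 0 ∉ insert x M := by
      simp only [Finset.mem_insert, not_or]
      exact ⟨hm0 ▸ l3 0 le_rfl, l1⟩
    obtain ⟨k, hk1, hk2⟩ := ih (insert x M) (insert (b 0) B) (fun i => b (i + 1)) (hnext _ hb0 l2) (fun i => m (i + 1)) hmS
      (fun i => by
        obtain ⟨a1, a2, a3, a4⟩ := hleg (i + 1)
        refine ⟨?_, ?_, fun j hj => ?_, fun j hj => a4 (j + 1) (by omega)⟩
        · simp only [Finset.mem_insert, not_or]
          exact ⟨hm0 ▸ a3 0 (by omega), a1⟩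
        · simp only [Finset.mem_insert, not_or]
          exact ⟨a4 0 (by omega), a2⟩
        · have := a3 (j + 1) (by omega)
          exact this)
    refine ⟨k + 1, fun i hi => ?_, hk2.mono ?_⟩
    · rcases i with - | i
      · exact ⟨hm0 ▸ (pick_free _ _ _).1, hm0 ▸ (pick_free _ _ _).2, fun j hj => absurd hj (by omega)⟩
      · obtain ⟨e1, e2, e3⟩ := hk1 i (by omega)
        simp only [Finset.mem_insert, not_or] at e1 e2
        refine ⟨e1.2, e2.2, fun j hj => ?_⟩
        rcases j with - | j
        · exact ⟨hm0 ▸ e1.1, e2.1⟩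
        · exact e3 j (by omega)
    · intro p hp
      rcases Finset.mem_union.1 hp with hp | hp
      · rcases Finset.mem_insert.1 hp with rfl | hp
        · exact Finset.mem_union_right _ (Finset.mem_image.2 ⟨0, by simp, hm0⟩)
        · exact Finset.mem_union_left _ hp
      · obtain ⟨i, hi, rfl⟩ := Finset.mem_image.1 hp
        exact Finset.mem_union_right _ (Finset.mem_image.2
          ⟨i + 1, by simpa using hi, rfl⟩)

/-- A bounded win from the empty board gives a winning strategy. -/
theorem makerWins_of_goal {Z : Finset Cell} (h : Goal ∅ Z) : MakerWins := by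
  obtain ⟨n, hn⟩ := h
  have hw : Win n ∅ ∅ := hn ∅ (by simp) (by simp)
  refine ⟨fun h => strat h n ∅ ∅, fun b hb => ?_⟩
  obtain ⟨k, hk, T, hT, hTs⟩ := strat_wins n ∅ ∅ b hw (makerMove (fun h => strat h n ∅ ∅) b) (fun i => rfl)
    (fun i => ⟨by simp, by simp, (hb i).1, (hb i).2⟩)
  refine ⟨k - 1, fun i hi j hj => (hk i (by omega)).2.2 j hj, T, hT, fun p hp => ?_⟩
  obtain ⟨i, hi, rfl⟩ := Finset.mem_image.1 (Finset.mem_union.1 (hTs hp) |>.resolve_left (by simp))
  exact ⟨i, by have := Finset.mem_range.1 hi; omega, rfl⟩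

/-- The earlier moves of some legal Breaker, most recent first. -/
noncomputable def someHistory (σ : Strategy) : ℕ → List Cell
  | 0 => []
  | i + 1 => (exists_free
      ((Finset.range (i + 1)).image fun j => σ ((someHistory σ i).reverse.take j))
      (someHistory σ i).toFinset).choose :: someHistory σ i

/-- Against every strategy some sequence is legal for Breaker, so `MakerWins` is not vacuous. -/
theorem exists_legalBreaker (σ : Strategy) : ∃ b : ℕ → Cell, LegalBreaker σ b := by
  set b : ℕ → Cell := fun i => (someHistory σ (i + 1)).headI with hb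
  have hrev : ∀ i, (someHistory σ i).reverse = List.ofFn fun j : Fin i => b j := by
    intro i
    induction i with
    | zero => simp [someHistory]
    | succ i ih =>
      rw [List.ofFn_succ_last]
      rw [show someHistory σ (i + 1) = b i :: someHistory σ i by rw [hb]; rfl,
        List.reverse_cons, ih]
      simp
  refine ⟨b, fun i => ?_⟩
  obtain ⟨h1, h2⟩ := (exists_free
    ((Finset.range (i + 1)).image fun j => σ ((someHistory σ i).reverse.take j))
    (someHistory σ i).toFinset).choose_spec
  constructor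
  · intro j hj e
    refine h1 (Finset.mem_image.2 ⟨j, Finset.mem_range.2 (by omega), ?_⟩)
    have hbi : b i = (someHistory σ (i + 1)).headI := rfl
    simp only [someHistory, List.headI_cons] at hbi
    rw [← hbi, e, makerMove]
    congr 1
    refine List.ext_getElem (by simp [hrev]; omega) fun m _ _ => by simp [hrev]
  · intro j hj e
    refine h2 (List.mem_toFinset.2 (List.mem_reverse.1 ?_))
    have hbi : b i = (someHistory σ (i + 1)).headI := rfl
    simp only [someHistory, List.headI_cons] at hbi
    rw [← hbi, e, hrev, List.mem_ofFn]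
    exact ⟨⟨j, hj⟩, rfl⟩

end Vale.Agent.P062
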