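import Vale.Agent.P062.Check

/-!
From a checked table to a strategy against a restricted set of first replies of Breaker: Maker
starts at the origin, and every allowed reply avoids the zone of some root claim `Goal {origin} Z`.
-/

namespace Vale.Agent.P062

open Finset

/-- Maker owns a copy after finitely many legal moves against `b`. -/
def WinsAgainst (σ : Strategy) (b : ℕ → Cell) : Prop :=
  ∃ n : ℕ, (∀ i ≤ n, ∀ j < i, makerMove σ b i ≠ makerMove σ b j ∧ makerMove σ b i ≠ b j) ∧
    ∃ T : Finset Cell, IsCopy T ∧ ∀ p ∈ T, ∃ i ≤ n, makerMove σ b i = p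

theorem makerWins_iff :
    MakerWins ↔ ∃ σ : Strategy, ∀ b, LegalBreaker σ b → WinsAgainst σ b := Iff.rfl

/-- The cell used for the origin. -/
def centre : ℕ := 12 + 24 * 12

/-- Every root is a claim from the centre alone; the common part of their zones is inside `E`. -/
noncomputable def rootsOk (T : Tree) (E : ℕ) : List ℕ → ℕ → Bool
  | [], acc => subB acc E
  | k :: ks, acc => Option.rec (motive := fun _ => Bool) false
      (fun nd => shiftOk (k % 256) (k / 256 % 256) (Nat.lor nd.mk' nd.zone) &&
        subB (shiftBoard (24 * (k / 256 % 256) + k % 256) nd.mk') (Nat.shiftLeft 1 centre) &&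
        rootsOk T E ks
          (Nat.land acc (shiftBoard (24 * (k / 256 % 256) + k % 256) nd.zone)))
      (T.get (k / 65536))

theorem rootsOk_spec {T : Tree} {E : ℕ} (hT : checkTree T T = true) :
    ∀ (ks : List ℕ) (acc : ℕ), rootsOk T E ks acc = true →
      ∀ y, y ∉ sem E → y ∈ sem acc → ∃ Z : Finset Cell, y ∉ Z ∧ Goal {cellOf centre} Z := by
  intro ks
  induction ks with
  | nil => exact fun acc h y hy hacc => absurd (testBit_of_subB h hacc) hy
  | cons k ks ih =>
    intro acc h y hy hacc
    rw [rootsOk] at h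
    cases hget : T.get (k / 65536) with
    | none => rw [hget] at h; exact absurd h Bool.false_ne_true
    | some n =>
      rw [hget] at h
      simp only [Bool.and_eq_true] at h
      obtain ⟨⟨hs, hM⟩, hrest⟩ := h
      have hsM : shiftOk (k % 256) (k / 256 % 256) n.mk' = true := shiftOk_mono hs fun i hi => by
        rw [show Nat.lor n.mk' n.zone = n.mk' ||| n.zone from rfl, Nat.testBit_or, hi, Bool.true_or]
      have hsZ : shiftOk (k % 256) (k / 256 % 256) n.zone = true := shiftOk_mono hs fun i hi => by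
        rw [show Nat.lor n.mk' n.zone = n.mk' ||| n.zone from rfl, Nat.testBit_or, hi, Bool.or_true]
      by_cases hyz : y ∈ sem (shiftBoard (24 * (k / 256 % 256) + k % 256) n.zone)
      · exact ih _ hrest y hy (mem_sem_land.2 ⟨hacc, hyz⟩)
      · refine ⟨_, hyz, ?_⟩
        have hg := Goal.image (claim_of_check hT _ n hget)
          (e := moveEquiv (k % 256) (k / 256 % 256)) (isSym_addRight _)
        rw [sem_shift_eq hsM, sem_shift_eq hsZ] at hg
        obtain ⟨m, hm⟩ := hg
        have hsub := testBit_of_subB hM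
        rw [sem_bit] at hsub
        refine ⟨m, fun B hB1 hB2 => ?_⟩
        exact (hm B (hB1.mono_right hsub) hB2).mono hsub

/-- A bitboard with all cells of the first 32 rows. -/
def fullBoard : ℕ := 2 ^ 768 - 1

theorem fullBoard_outside : ∀ y : Cell, y ∉ sem fullBoard →
    y.1 < 0 ∨ 24 ≤ y.1 ∨ y.2 < 0 ∨ 32 ≤ y.2 := by
  intro y hy
  by_contra hcon
  push Not at hcon
  obtain ⟨h1, h2, h3, h4⟩ := hcon
  refine hy ?_
  obtain ⟨a, ha⟩ := Int.eq_ofNat_of_zero_le h1
  obtain ⟨b, hb⟩ := Int.eq_ofNat_of_zero_le h3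
  have e : y = cellOf (a + 24 * b) := by
    simp only [cellOf, Prod.ext_iff]
    omega
  rw [e, mem_sem, fullBoard, Nat.testBit_two_pow_sub_one, decide_eq_true]
  omega

/-- Every cell off the board avoids every zone of the table. -/
theorem win_of_roots {T : Tree} {E : ℕ} {ks : List ℕ} (hT : checkTree T T = true)
    (hks : rootsOk T E ks fullBoard = true) {k0 : ℕ} {n0 : Node} (hk0 : T.get k0 = some n0)
    (hb : subB n0.mk' (Nat.shiftLeft 1 centre) = true) (hz : subB n0.zone fullBoard = true)
    (y : Cell) (hy : y ∉ sem E) (hy0 : y ≠ cellOf centre) :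
    ∃ m, Win m {cellOf centre} {y} := by
  obtain ⟨Z, hyZ, m, hm⟩ : ∃ Z : Finset Cell, y ∉ Z ∧ Goal {cellOf centre} Z := by
    by_cases hyf : y ∈ sem fullBoard
    · exact rootsOk_spec hT ks _ hks y hy hyf
    · obtain ⟨m, hm⟩ := claim_of_check hT k0 n0 hk0
      have hsub := testBit_of_subB hb
      rw [sem_bit] at hsub
      exact ⟨sem n0.zone, fun h => hyf (testBit_of_subB hz h), m,
        fun B h1 h2 => (hm B (h1.mono_right hsub) h2).mono hsub⟩
  exact ⟨m, hm {y} (by simpa using hy0) (by simpa using hyZ)⟩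

/-- Maker, having started at the origin, beats each reply in `P`. -/
theorem exists_strategy_of_replies {P : Cell → Prop}
    (h : ∀ y : Cell, y ≠ (0, 0) → P y → ∃ m, Win m {((0, 0) : Cell)} {y}) :
    ∃ σ : Strategy, σ [] = (0, 0) ∧
      ∀ b, LegalBreaker σ b → P (b 0) → WinsAgainst σ b := by
  classical
  refine ⟨fun
    | [] => (0, 0)
    | y :: l => if hy : ∃ m, Win m {((0, 0) : Cell)} {y}
        then strat l hy.choose {((0, 0) : Cell)} {y} else (exists_free {((0, 0) : Cell)} {y}).choose,
    rfl, fun b hb hP => ?_⟩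
  set σ : Strategy := fun
    | [] => (0, 0)
    | y :: l => if hy : ∃ m, Win m {((0, 0) : Cell)} {y}
        then strat l hy.choose {((0, 0) : Cell)} {y} else (exists_free {((0, 0) : Cell)} {y}).choose
    with hσ
  have hm0 : makerMove σ b 0 = (0, 0) := by simp [makerMove, hσ]
  have hb0 : b 0 ≠ (0, 0) := hm0 ▸ (hb 0).1 0 le_rfl
  have hy : ∃ m, Win m {((0, 0) : Cell)} {b 0} := h _ hb0 hP
  have hmS : ∀ i, makerMove σ b (i + 1) =
      strat (List.ofFn fun j : Fin i => b (j + 1)) hy.choose {((0, 0) : Cell)} {b 0} := fun i => by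
    simp [makerMove, List.ofFn_succ, hσ, hy]
  obtain ⟨k, hk, T, hT, hTs⟩ := strat_wins hy.choose {((0, 0) : Cell)} {b 0} (fun i => b (i + 1))
    hy.choose_spec (fun i => makerMove σ b (i + 1)) hmS (fun i => by
      obtain ⟨a1, a2⟩ := hb (i + 1)
      refine ⟨?_, ?_, fun j hj => a1 (j + 1) (by omega), fun j hj => a2 (j + 1) (by omega)⟩
      · simpa [hm0] using a1 0 (by omega)
      · simpa using a2 0 (by omega))
  refine ⟨k, fun i hi j hj => ?_, T, hT, fun p hp => ?_⟩
  · obtain ⟨i, rfl⟩ : ∃ i', i = i' + 1 := ⟨i - 1, by omega⟩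
    obtain ⟨e1, e2, e3⟩ := hk i (by omega)
    rcases j with - | j
    · exact ⟨by simpa [hm0] using e1, by simpa using e2⟩
    · exact e3 j (by omega)
  · rcases Finset.mem_union.1 (hTs hp) with hp | hp
    · exact ⟨0, Nat.zero_le _, by rw [hm0]; exact (Finset.mem_singleton.1 hp).symm⟩
    · obtain ⟨i, hi, rfl⟩ := Finset.mem_image.1 hp
      exact ⟨i + 1, by have := Finset.mem_range.1 hi; omega, rfl⟩

/-- The translation taking the centre to the origin. -/
theorem win_at_origin {m : ℕ} {y : Cell}
    (h : Win m {cellOf centre} {y + (12, 12)}) : Win m {((0, 0) : Cell)} {y} := by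
  have := h.image (isSym_addRight ((-12, -12) : Cell))
  simpa [cellOf, centre, add_assoc, show ((0 : ℤ), (0 : ℤ)) = (0 : Cell) from rfl] using this

/-- The centre and its four orthogonal neighbours. -/
def plusBoard : ℕ :=
  2 ^ centre + 2 ^ (centre + 1) + 2 ^ (centre - 1) + 2 ^ (centre + 24) + 2 ^ (centre - 24)

theorem testBit_plusBoard : ((List.range 768).all fun i => !Nat.testBit plusBoard i ||
    Nat.beq i centre || Nat.beq i (centre + 1) || Nat.beq i (centre - 1) ||
      Nat.beq i (centre + 24) || Nat.beq i (centre - 24)) = true := by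
  decide +kernel

/-- A checked table whose roots miss every cell outside the plus shape proves that Maker beats all
first replies that are not orthogonally adjacent to the first stone. -/
theorem wins_nonadjacent {T : Tree} {ks : List ℕ} (hT : checkTree T T = true)
    (hks : rootsOk T plusBoard ks fullBoard = true) {k0 : ℕ} {n0 : Node}
    (hk0 : T.get k0 = some n0) (hb : subB n0.mk' (Nat.shiftLeft 1 centre) = true)
    (hz : subB n0.zone fullBoard = true) :
    ∃ σ : Strategy, σ [] = (0, 0) ∧ ∀ b, LegalBreaker σ b →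
      |(b 0).1| + |(b 0).2| ≠ 1 → WinsAgainst σ b := by
  refine exists_strategy_of_replies (P := fun y => |y.1| + |y.2| ≠ 1) fun y hy0 hy => ?_
  suffices h : y + (12, 12) ∉ sem plusBoard ∧ y + (12, 12) ≠ cellOf centre by
    obtain ⟨m, hm⟩ := win_of_roots hT hks hk0 hb hz (y + (12, 12)) h.1 h.2
    exact ⟨m, win_at_origin hm⟩
  refine ⟨fun hmem => ?_, fun e => ?_⟩
  · obtain ⟨i, hi, e⟩ := exists_of_mem_sem hmem
    have hlt : i < 768 := by
      by_contra hcon
      have h1 := Nat.ge_two_pow_of_testBit hi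
      have h2 : 2 ^ 768 ≤ 2 ^ i := Nat.pow_le_pow_right (by norm_num) (not_lt.1 hcon)
      have h3 : plusBoard < 2 ^ 768 := by decide +kernel
      omega
    have hh := List.all_eq_true.1 testBit_plusBoard i (List.mem_range.2 hlt)
    rw [hi, Bool.not_true, Bool.false_or] at hh
    simp only [Bool.or_eq_true] at hh
    obtain ⟨y1, y2⟩ := y
    simp only [cellOf, Prod.mk_add_mk, Prod.mk.injEq] at e
    simp only [ne_eq, Prod.mk.injEq] at hy0 hy
    rcases hh with (((h | h) | h) | h) | h <;>
    · have := Nat.eq_of_beq_eq_true h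
      subst this
      norm_num [centre] at e
      obtain ⟨e1, e2⟩ := e
      first
        | exact hy0 ⟨by omega, by omega⟩
        | exact hy (by
            rcases abs_cases y1 with ⟨a, a'⟩ | ⟨a, a'⟩ <;>
              rcases abs_cases y2 with ⟨b, b'⟩ | ⟨b, b'⟩ <;> omega)
  · refine hy0 ?_
    simp only [cellOf, centre, Prod.ext_iff, Prod.fst_add, Prod.snd_add] at e
    ext <;> simp <;> omega

end Vale.Agent.P062
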