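import Vale.Agent.P062.Board

/-!
The eight orientations, coded by numbers below 8, and their action on cells and bitboards.
-/

namespace Vale.Agent.P062

open Finset

/-- An affine map with a signed permutation matrix preserves copies. -/
theorem isSym_affine (e : Cell ≃ Cell) (t : Cell) (a b c d : ℤ)
    (h : (|a| = 1 ∧ b = 0 ∧ c = 0 ∧ |d| = 1) ∨ (a = 0 ∧ |b| = 1 ∧ |c| = 1 ∧ d = 0))
    (he : ∀ p : Cell, e p = (t.1 + a * p.1 + b * p.2, t.2 + c * p.1 + d * p.2)) : IsSym e := by
  rintro T ⟨u, a', b', c', d', h', rfl⟩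
  refine ⟨(t.1 + a * u.1 + b * u.2, t.2 + c * u.1 + d * u.2), a * a' + b * c', a * b' + b * d',
    c * a' + d * c', c * b' + d * d', ?_, ?_⟩
  · rcases h with ⟨x1, rfl, rfl, x4⟩ | ⟨rfl, x2, x3, rfl⟩ <;>
      rcases h' with ⟨y1, rfl, rfl, y4⟩ | ⟨rfl, y2, y3, rfl⟩
    · left; simp [abs_mul, *]
    · right; simp [abs_mul, *]
    · right; simp [abs_mul, *]
    · left; simp [abs_mul, *]
  · rw [Finset.image_image]
    refine Finset.image_congr fun p _ => ?_
    simp only [Function.comp_apply, he]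
    ext <;> simp <;> ring

/-- Reflection of the first coordinate in orientation `g`. -/
def sg1 (g : ℕ) : ℤ := bif Nat.beq (g % 2) 1 then -1 else 1

/-- Reflection of the second coordinate in orientation `g`. -/
def sg2 (g : ℕ) : ℤ := bif Nat.beq (g / 2 % 2) 1 then -1 else 1

/-- The affine map of orientation `g` with offsets `dx`, `dy`. -/
def symFun (g dx dy : ℕ) (p : Cell) : Cell :=
  bif Nat.blt g 4 then (sg1 g * p.1 + dx - 128, sg2 g * p.2 + dy - 128)
  else (sg2 g * p.2 + dx - 128, sg1 g * p.1 + dy - 128)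

/-- The inverse of `symFun`. -/
def symInv (g dx dy : ℕ) (p : Cell) : Cell :=
  bif Nat.blt g 4 then (sg1 g * (p.1 - dx + 128), sg2 g * (p.2 - dy + 128))
  else (sg1 g * (p.2 - dy + 128), sg2 g * (p.1 - dx + 128))

theorem sg1_cases (g : ℕ) : sg1 g = 1 ∨ sg1 g = -1 := by
  unfold sg1; cases Nat.beq (g % 2) 1 <;> simp

theorem sg2_cases (g : ℕ) : sg2 g = 1 ∨ sg2 g = -1 := by
  unfold sg2; cases Nat.beq (g / 2 % 2) 1 <;> simp

/-- Orientation `g` with offsets, as a permutation of cells. -/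
def symEquiv (g dx dy : ℕ) : Cell ≃ Cell where
  toFun := symFun g dx dy
  invFun := symInv g dx dy
  left_inv p := by
    unfold symFun symInv
    rcases sg1_cases g with h1 | h1 <;> rcases sg2_cases g with h2 | h2 <;>
      cases Nat.blt g 4 <;> simp [h1, h2] <;> ext <;> simp <;> ring
  right_inv p := by
    unfold symFun symInv
    rcases sg1_cases g with h1 | h1 <;> rcases sg2_cases g with h2 | h2 <;>
      cases Nat.blt g 4 <;> simp [h1, h2] <;> ext <;> simp <;> ring

theorem isSym_symEquiv (g dx dy : ℕ) : IsSym (symEquiv g dx dy) := by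
  have h1 : |sg1 g| = 1 := by rcases sg1_cases g with h | h <;> simp [h]
  have h2 : |sg2 g| = 1 := by rcases sg2_cases g with h | h <;> simp [h]
  cases hg : Nat.blt g 4
  · refine isSym_affine _ ((dx : ℤ) - 128, (dy : ℤ) - 128) 0 (sg2 g) (sg1 g) 0
      (Or.inr ⟨rfl, h2, h1, rfl⟩) fun p => ?_
    simp only [symEquiv, Equiv.coe_fn_mk, symFun, hg, cond_false]
    ext <;> simp <;> ring
  · refine isSym_affine _ ((dx : ℤ) - 128, (dy : ℤ) - 128) (sg1 g) 0 0 (sg2 g)
      (Or.inl ⟨h1, rfl, rfl, h2⟩) fun p => ?_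
    simp only [symEquiv, Equiv.coe_fn_mk, symFun, hg, cond_true]
    ext <;> simp <;> ring

theorem symFun_cellOf {g dx dy T i : ℕ} (hi : i < 24 * 128) (h : symHit g dx dy T i = true) :
    symFun g dx dy (cellOf i) ∈ sem T := by
  simp only [symHit, Bool.and_eq_true] at h
  obtain ⟨⟨⟨a1, a2⟩, a3⟩, a4⟩ := h
  have b1 := Nat.le_of_ble_eq_true a1
  have b2 := Nat.le_of_ble_eq_true a2
  have b3 := Nat.le_of_ble_eq_true a3
  suffices e : symFun g dx dy (cellOf i) =
      cellOf ((symIdx g dx dy i).1 - 256 + 24 * ((symIdx g dx dy i).2 - 256)) by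
    rw [e, mem_sem]; exact a4
  revert b1 b2 b3
  unfold symFun symIdx cellOf sg1 sg2 flipN
  cases Nat.blt g 4 <;> cases Nat.beq (g % 2) 1 <;> cases Nat.beq (g / 2 % 2) 1 <;>
    simp only [cond_true, cond_false, Prod.mk.injEq] <;> intro b1 b2 b3 <;>
    constructor <;> omega

theorem bitsAll_spec {f : ℕ → Bool} {X : ℕ} : ∀ {n lo : ℕ}, bitsAll f X n lo = true →
    ∀ i, lo ≤ i → i < lo + 2 ^ n → Nat.testBit X i = true → f i = true := by
  intro n
  induction n with
  | zero =>
    intro lo h i hlo hhi hi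
    obtain rfl : i = lo := by simp at hhi; omega
    change (!Nat.testBit X i || f i) = true at h
    simpa [hi] using h
  | succ n ih =>
    intro lo h i hlo hhi hi
    change (Nat.beq (Nat.land (Nat.shiftRight X lo) (2 ^ (2 ^ (n + 1)) - 1)) 0 ||
      (bitsAll f X n lo && bitsAll f X n (lo + 2 ^ n))) = true at h
    rw [Bool.or_eq_true, Bool.and_eq_true] at h
    rcases h with h | ⟨h1, h2⟩
    · exfalso
      have e : (X >>> lo) &&& (2 ^ (2 ^ (n + 1)) - 1) = 0 := Nat.eq_of_beq_eq_true h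
      have : Nat.testBit ((X >>> lo) &&& (2 ^ (2 ^ (n + 1)) - 1)) (i - lo) = true := by
        rw [Nat.testBit_and, Nat.testBit_shiftRight, Nat.add_sub_cancel' hlo, hi,
          Nat.testBit_two_pow_sub_one, decide_eq_true (by omega)]
        rfl
      rw [e, Nat.zero_testBit] at this
      exact Bool.false_ne_true this
    · rcases Nat.lt_or_ge i (lo + 2 ^ n) with hlt | hge
      · exact ih h1 i hlo hlt hi
      · exact ih h2 i hge (by rw [pow_succ] at hhi; omega) hi

theorem symSubset_spec {g dx dy T X : ℕ} (h : symSubset g dx dy T X = true) :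
    (sem X).image (symEquiv g dx dy) ⊆ sem T := by
  simp only [symSubset, Bool.and_eq_true] at h
  intro p hp
  obtain ⟨q, hq, rfl⟩ := Finset.mem_image.1 hp
  obtain ⟨i, hi, rfl⟩ := exists_of_mem_sem hq
  have h1024 : i < 1024 := by
    by_contra hcon
    have e : Nat.testBit (X >>> 1024) (i - 1024) = true := by
      rw [Nat.testBit_shiftRight, Nat.add_sub_cancel' (not_lt.1 hcon)]; exact hi
    rw [show X >>> 1024 = 0 from Nat.eq_of_beq_eq_true h.1, Nat.zero_testBit] at e
    exact Bool.false_ne_true e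
  exact symFun_cellOf (by omega) (bitsAll_spec h.2 i (Nat.zero_le i) (by norm_num; omega) hi)

end Vale.Agent.P062
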